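import Vale.Agent.P151Q.Main

namespace Vale.Agent.Results.P151.PlanarQuotient

open MeasureTheory ProbabilityTheory

/-- Bernoulli bond percolation on `G`: the law of the random set of open edges, each edge of `G`
being open independently with probability `p`. -/
noncomputable def bondPerc {V : Type} (G : SimpleGraph V) (p : unitInterval) :
    Measure (Set (Sym2 V)) :=
  setBernoulli G.edgeSet p

/-- The event that the open subgraph has an infinite connected component. -/
def infCluster (V : Type) : Set (Set (Sym2 V)) :=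
  {ω | ∃ x, {y | (SimpleGraph.fromEdgeSet ω).Reachable x y}.Infinite}

/-- The critical parameter. -/
noncomputable def pc {V : Type} (G : SimpleGraph V) : unitInterval :=
  sInf {p | 0 < bondPerc G p (infCluster V)}

/-- The group `Γ` of automorphisms of `G` has finitely many orbits on the vertices. -/
def FinOrbits {V : Type} {G : SimpleGraph V} (Γ : Subgroup (G ≃g G)) : Prop :=
  ∃ R : Finset V, ∀ v, ∃ γ ∈ Γ, γ v ∈ R

theorem result :
    (∀ (V : Type) (G : SimpleGraph V) [G.LocallyFinite], G.Connected →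
      ∀ Γ : Subgroup (G ≃g G), FinOrbits Γ →
      ∀ φ : Γ →* Multiplicative (ℤ × ℤ), Function.Surjective φ →
        (∀ γ : Γ, (∃ v, (γ : G ≃g G) v = v) → φ γ = 1) →
        pc G < 1 → bondPerc G (pc G) (infCluster V) = 0) ∧
    (∀ (V : Type) (G : SimpleGraph V) [G.LocallyFinite], G.Connected →
      ∀ Γ : Subgroup (G ≃g G), FinOrbits Γ →
      ∀ (N : Type) [Group N], Group.FG N → Group.IsVirtuallyNilpotent N →
      ∀ ψ : Γ →* N, Function.Surjective ψ →
        (∀ v, (ψ '' {γ | (γ : G ≃g G) v = v}).Finite) →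
        (∀ v, ((fun γ : Γ => (γ : G ≃g G) v) '' ψ.ker).Finite) →
        pc G < 1 → bondPerc G (pc G) (infCluster V) = 0) ∧
    (∀ (H : Type) [Group H] (S : Finset H), Subgroup.closure (S : Set H) = ⊤ →
      Group.IsVirtuallyNilpotent H → pc (SimpleGraph.mulCayley (S : Set H)) < 1 →
        bondPerc (SimpleGraph.mulCayley (S : Set H)) (pc (SimpleGraph.mulCayley (S : Set H)))
          (infCluster H) = 0) :=
  ⟨fun V G _ hc Γ hq φ h1 h2 => Vale.Agent.P151Q.mainA V G (fun _ => Set.toFinite _) hc Γ hq
      φ h1 h2,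
    fun _ G _ hc Γ hq N _ n1 n2 ψ h1 h2 h3 => Vale.Agent.P151Q.stmtB Vale.Agent.P151Q.mainA G
      (fun _ => Set.toFinite _) hc Γ hq N n1 n2 ψ h1 h2 h3,
    fun H _ S h1 h2 => Vale.Agent.P151Q.stmtC Vale.Agent.P151Q.mainA H S h1 h2⟩

end Vale.Agent.Results.P151.PlanarQuotient
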