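import Vale.Agent.P151.Meas

namespace Vale.Agent.Results.P151.ZdCritical

open MeasureTheory ProbabilityTheory

/-- The nearest-neighbour lattice on `ℤ^d`: two points are adjacent iff their l1 distance is 1. -/
def lattice (d : ℕ) : SimpleGraph (Fin d → ℤ) where
  Adj x y := ∑ i, |x i - y i| = 1
  symm := ⟨fun x y h => by simpa only [abs_sub_comm] using h⟩
  loopless := ⟨fun x h => by simp at h⟩

/-- Bernoulli bond percolation on `G`: the law of the random set of open edges, each edge of `G`
being open independently with probability `p`. -/
noncomputable def bondPerc {V : Type} (G : SimpleGraph V) (p : unitInterval) :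
    Measure (Set (Sym2 V)) :=
  setBernoulli G.edgeSet p

/-- The event that the open subgraph has an infinite connected component. -/
def infCluster (V : Type) : Set (Set (Sym2 V)) :=
  {ω | ∃ x, {y | (SimpleGraph.fromEdgeSet ω).Reachable x y}.Infinite}

/-- The critical parameter. -/
noncomputable def pc {V : Type} (G : SimpleGraph V) : unitInterval :=
  sInf {p | 0 < bondPerc G p (infCluster V)}

theorem result (d : ℕ) (hd : 2 ≤ d) :
    bondPerc (lattice d) (pc (lattice d)) (infCluster (Fin d → ℤ)) = 0 :=
  Vale.Agent.P151.main (i0 := ⟨0, by omega⟩) (i1 := ⟨1, by omega⟩) (by simp)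
    fun _ _ => Vale.Agent.P151.adj_iff

end Vale.Agent.Results.P151.ZdCritical
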